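import Vale.Agent.P252.MathlibUsed

open scoped ContDiff

namespace Vale.Agent.P252

/-- The partial derivative of `f` in the `i`-th standard coordinate of `ℝⁿ`. -/
noncomputable def pd {n : ℕ} (i : Fin n) (f : EuclideanSpace ℝ (Fin n) → ℝ) :
    EuclideanSpace ℝ (Fin n) → ℝ :=
  fun x => fderiv ℝ f x (EuclideanSpace.single i 1)

/-- The Hessian matrix `D²f(x)` of second partial derivatives. -/
noncomputable def hess {n : ℕ} (f : EuclideanSpace ℝ (Fin n) → ℝ)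
    (x : EuclideanSpace ℝ (Fin n)) : Matrix (Fin n) (Fin n) ℝ :=
  Matrix.of fun i j => pd i (pd j f) x

/-- `w = (det D²u)^(-(n+1)/(n+2))`. -/
noncomputable def wfun {n : ℕ} (u : EuclideanSpace ℝ (Fin n) → ℝ) :
    EuclideanSpace ℝ (Fin n) → ℝ :=
  fun x => (hess u x).det ^ (-((n : ℝ) + 1) / ((n : ℝ) + 2))

/-- The affine maximal equation `∑ U^{ij} ∂_{ij} w = 0` on `Ω`, where
`U^{ij} = det(D²u) (D²u)⁻¹_{ij}` and `w = (det D²u)^(-(n+1)/(n+2))`. -/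
def AffineMaximalOn {n : ℕ} (Ω : Set (EuclideanSpace ℝ (Fin n)))
    (u : EuclideanSpace ℝ (Fin n) → ℝ) : Prop :=
  ∀ x ∈ Ω, ∑ i, ∑ j, ((hess u x).det * (hess u x)⁻¹ i j) * pd i (pd j (wfun u)) x = 0

/-- `u` is a polynomial of degree at most two. -/
def IsQuadratic {n : ℕ} (u : EuclideanSpace ℝ (Fin n) → ℝ) : Prop :=
  ∃ (A : Matrix (Fin n) (Fin n) ℝ) (b : Fin n → ℝ) (c : ℝ), ∀ x : EuclideanSpace ℝ (Fin n),
    u x = (∑ i, ∑ j, A i j * x i * x j) / 2 + ∑ i, b i * x i + c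

end Vale.Agent.P252
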