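import Vale.Agent.P252.MathlibUsed
import Vale.Agent.P252.Defs

open scoped ContDiff Topology
open Filter

namespace Vale.Agent.P252

/-- The Berwald-Blaschke metric `(det D²u)^(-1/(n+2)) u_ij` of the graph of `u`, as a quadratic
form in the tangent vector `v` at `x`. -/
noncomputable def affMetric {n : ℕ} (u : EuclideanSpace ℝ (Fin n) → ℝ)
    (x v : EuclideanSpace ℝ (Fin n)) : ℝ :=
  (hess u x).det ^ (-1 / ((n : ℝ) + 2)) * ∑ i, ∑ j, hess u x i j * v i * v j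

/-- Length of the curve `γ : [0,1] → ℝⁿ` in the Berwald-Blaschke metric. -/
noncomputable def affLength {n : ℕ} (u : EuclideanSpace ℝ (Fin n) → ℝ)
    (γ : ℝ → EuclideanSpace ℝ (Fin n)) : ℝ :=
  ∫ t in (0 : ℝ)..1, Real.sqrt (affMetric u (γ t) (deriv γ t))

/-- Distance of `x, y ∈ Ω` in the Berwald-Blaschke metric on `Ω`: the infimum of the lengths of
the `C¹` curves in `Ω` from `x` to `y`. -/
noncomputable def affDist {n : ℕ} (Ω : Set (EuclideanSpace ℝ (Fin n)))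
    (u : EuclideanSpace ℝ (Fin n) → ℝ) (x y : EuclideanSpace ℝ (Fin n)) : ℝ :=
  sInf {L | ∃ γ : ℝ → EuclideanSpace ℝ (Fin n), ContDiff ℝ 1 γ ∧ γ 0 = x ∧ γ 1 = y ∧
    (∀ t ∈ Set.Icc (0 : ℝ) 1, γ t ∈ Ω) ∧ L = affLength u γ}

/-- The graph of `u` over `Ω` is affine complete: `Ω` with the Berwald-Blaschke metric is
complete, i.e. every Cauchy sequence converges. -/
def AffineComplete {n : ℕ} (Ω : Set (EuclideanSpace ℝ (Fin n)))
    (u : EuclideanSpace ℝ (Fin n) → ℝ) : Prop :=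
  ∀ x : ℕ → EuclideanSpace ℝ (Fin n), (∀ k, x k ∈ Ω) →
    (∀ ε > 0, ∃ N, ∀ i ≥ N, ∀ j ≥ N, affDist Ω u (x i) (x j) < ε) →
    ∃ y ∈ Ω, Tendsto (fun k => affDist Ω u (x k) y) atTop (𝓝 0)

end Vale.Agent.P252
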