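import Vale.Agent.P252.MathlibUsed
import Vale.Agent.P252.Defs

open scoped ContDiff Topology
open Filter

namespace Vale.Agent.P252

/-- Length of the curve `γ : [0,1] → ℝⁿ` in the metric `g_ij = δ_ij + u_i u_j` induced on the
graph of `u` by the Euclidean metric. -/
noncomputable def graphLength {n : ℕ} (u : EuclideanSpace ℝ (Fin n) → ℝ)
    (γ : ℝ → EuclideanSpace ℝ (Fin n)) : ℝ :=
  ∫ t in (0 : ℝ)..1, Real.sqrt (‖deriv γ t‖ ^ 2 + (fderiv ℝ u (γ t) (deriv γ t)) ^ 2)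

/-- Distance of `x, y ∈ Ω` in the metric `g_ij = δ_ij + u_i u_j` on `Ω`: the infimum of the
lengths of the `C¹` curves in `Ω` from `x` to `y`. -/
noncomputable def graphDist {n : ℕ} (Ω : Set (EuclideanSpace ℝ (Fin n)))
    (u : EuclideanSpace ℝ (Fin n) → ℝ) (x y : EuclideanSpace ℝ (Fin n)) : ℝ :=
  sInf {L | ∃ γ : ℝ → EuclideanSpace ℝ (Fin n), ContDiff ℝ 1 γ ∧ γ 0 = x ∧ γ 1 = y ∧
    (∀ t ∈ Set.Icc (0 : ℝ) 1, γ t ∈ Ω) ∧ L = graphLength u γ}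

/-- The graph of `u` over `Ω` is Euclidean complete: `Ω` with the metric
`g_ij = δ_ij + u_i u_j` is complete, i.e. every Cauchy sequence converges. -/
def EuclideanComplete {n : ℕ} (Ω : Set (EuclideanSpace ℝ (Fin n)))
    (u : EuclideanSpace ℝ (Fin n) → ℝ) : Prop :=
  ∀ x : ℕ → EuclideanSpace ℝ (Fin n), (∀ k, x k ∈ Ω) →
    (∀ ε > 0, ∃ N, ∀ i ≥ N, ∀ j ≥ N, graphDist Ω u (x i) (x j) < ε) →
    ∃ y ∈ Ω, Tendsto (fun k => graphDist Ω u (x k) y) atTop (𝓝 0)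

/-- `u` is `½ xᵀAx + b·x + c` with `A` symmetric positive definite. -/
def IsEllipticParaboloid {n : ℕ} (u : EuclideanSpace ℝ (Fin n) → ℝ) : Prop :=
  ∃ (A : Matrix (Fin n) (Fin n) ℝ) (b : Fin n → ℝ) (c : ℝ), A.PosDef ∧
    ∀ x : EuclideanSpace ℝ (Fin n),
      u x = (∑ i, ∑ j, A i j * x i * x j) / 2 + ∑ i, b i * x i + c

/-- The assertion of the affine Bernstein problem in dimension `n`. -/
def AffineBernstein (n : ℕ) : Prop :=
  ∀ (Ω : Set (EuclideanSpace ℝ (Fin n))) (u : EuclideanSpace ℝ (Fin n) → ℝ),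
    Ω.Nonempty → IsOpen Ω → Convex ℝ Ω → ContDiffOn ℝ ∞ u Ω →
    (∀ x ∈ Ω, (hess u x).PosDef) → AffineMaximalOn Ω u → EuclideanComplete Ω u →
    Ω = Set.univ ∧ IsEllipticParaboloid u

end Vale.Agent.P252
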